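import Crest.Agent.N207.S.Da.Seq
/-!
Row 207 (S0320), block DATA (helper81): pointwise bounds of the initial data.
`T = s^20`, `om = s^56 = T^(14/5)`.
-/

set_option autoImplicit false

open Set Filter
open scoped Topology ContDiff

noncomputable section
namespace Crest.Agent.N207.S.Da

open Out

/-- the parameters. -/
structure Pm (X s α : ℝ) : Prop where
  s0 : 0 < s
  sX : s ≤ X
  X1 : X ≤ 1 / 10 ^ 6
  α0 : -(4 / 10 ^ 6) ≤ α
  α1 : α ≤ 0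

namespace Pm

variable {X s α x : ℝ} {a : Fin 3 → ℝ}

lemma X0 (h : Pm X s α) : 0 < X := h.s0.trans_le h.sX
lemma s6 (h : Pm X s α) : s ≤ 1 / 10 ^ 6 := h.sX.trans h.X1
lemma s1 (h : Pm X s α) : s ≤ 1 := h.s6.trans (by norm_num)
lemma pw_le (h : Pm X s α) {m n : ℕ} (hmn : m ≤ n) : s ^ n ≤ s ^ m :=
  pow_le_pow_of_le_one h.s0.le h.s1 hmn
lemma pw_small (h : Pm X s α) {m n : ℕ} (hmn : m < n) : s ^ n ≤ s ^ m / 10 ^ 6 := by
  have h1 := h.pw_le (Nat.succ_le_of_lt hmn)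
  have h2 := mul_le_mul_of_nonneg_left h.s6 (pow_pos h.s0 m).le
  rw [pow_succ] at h1
  linarith
lemma pw_le_X (h : Pm X s α) {n : ℕ} (hn : 1 ≤ n) : s ^ n ≤ X := by
  have := h.pw_le hn
  rw [pow_one] at this
  exact this.trans h.sX
lemma abs_α (h : Pm X s α) : |α| ≤ 1 := abs_le.2 ⟨by linarith [h.α0], by linarith [h.α1]⟩

lemma ypow_le (h : Pm X s α) (hx : 0 ≤ x) : (x + s ^ 56) ^ α ≤ s⁻¹ := by
  have h0 := h.s0
  refine (Real.rpow_le_rpow_of_nonpos (pow_pos h0 56) (by linarith) h.α1).trans ?_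
  rw [← Real.rpow_natCast, ← Real.rpow_mul h0.le, ← Real.rpow_neg_one]
  exact Real.rpow_le_rpow_of_exponent_ge h0 h.s1 (by push_cast; linarith [h.α0])

lemma ypow_le' (h : Pm X s α) (hx : 0 < x) (hx1 : x ≤ 1) {p : ℝ} (hp : p ≤ α) :
    (x + s ^ 56) ^ α ≤ x ^ p :=
  (Real.rpow_le_rpow_of_nonpos hx (by linarith [pow_pos h.s0 56]) h.α1).trans
    (Real.rpow_le_rpow_of_exponent_ge hx hx1 hp)

lemma ypow_T (h : Pm X s α) (hx : 0 ≤ x) : (x + s ^ 56) ^ α * (s ^ 20) ^ 3 ≤ s ^ 59 := by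
  have h0 := h.s0
  refine (mul_le_mul_of_nonneg_right (h.ypow_le hx) (by positivity)).trans (le_of_eq ?_)
  field_simp

/-- the key weight bound. -/
lemma key (h : Pm X s α) (hx : 0 ≤ x) (hx1 : x ≤ 1) :
    (x + s ^ 56) ^ α * max x (s ^ 20) ^ 3 ≤ x + s ^ 56 := by
  rcases le_total x (s ^ 20) with h1 | h1
  · rw [max_eq_right h1]
    linarith [h.ypow_T hx, h.pw_le (show 56 ≤ 59 by norm_num)]
  · rw [max_eq_left h1]
    have hx0 : 0 < x := (pow_pos h.s0 20).trans_le h1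
    have h2 := h.ypow_le' hx0 hx1 (p := -1) (by linarith [h.α0])
    rw [Real.rpow_neg_one] at h2
    have h3 := mul_le_mul_of_nonneg_right h2 (pow_pos hx0 3).le
    have h4 : x⁻¹ * x ^ 3 = x * x := by field_simp
    nlinarith [pow_pos h.s0 56]

lemma abs_eta (h : Pm X s α) (ha : ∀ i, |a i| ≤ 1) (hx : 0 ≤ x) {M : ℝ} (h1 : s ^ 20 ≤ M)
    (h2 : x ≤ M) : |ES X (s ^ 56) α (s ^ 20) a 0 (x + s ^ 56)| ≤ (x + s ^ 56) ^ α * M ^ 3 := by
  have hy : 0 < (x + s ^ 56) ^ α := Real.rpow_pos_of_pos (by linarith [pow_pos h.s0 56]) _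
  rw [ES_zero, abs_mul, abs_mul, abs_of_nonneg (chi_nonneg _), abs_of_pos hy]
  have h3 := (QS_bound ha (pow_pos h.s0 20).le hx h1 h2).1
  exact mul_le_mul (mul_le_of_le_one_left hy.le (chi_le_one _)) h3 (abs_nonneg _) hy.le

lemma eta_small (h : Pm X s α) (ha : ∀ i, |a i| ≤ 1) (hx : 0 ≤ x) (h1 : x ≤ s ^ 20) :
    |ES X (s ^ 56) α (s ^ 20) a 0 (x + s ^ 56)| ≤ s ^ 56 :=
  (h.abs_eta ha hx le_rfl h1).trans ((h.ypow_T hx).trans (h.pw_le (by norm_num)))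

lemma eta_far (h : Pm X s α) (a : Fin 3 → ℝ) (hx : 3 * X < x) :
    ES X (s ^ 56) α (s ^ 20) a 0 (x + s ^ 56) = 0 := by
  have := cS_right (om := s ^ 56) (y := x + s ^ 56) h.X0 (by linarith) 0
  simp only [ES, pr_zero, this, zero_mul]

lemma eta_big (h : Pm X s α) (ha : ∀ i, |a i| ≤ 1) (h1 : s ^ 20 ≤ x) :
    |ES X (s ^ 56) α (s ^ 20) a 0 (x + s ^ 56)| ≤ x ^ 2 / 100 := by
  have hx0 : 0 < x := (pow_pos h.s0 20).trans_le h1
  rcases le_or_gt x (3 * X) with h2 | h2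
  · have hX := h.X1
    refine (h.abs_eta ha hx0.le h1 le_rfl).trans ?_
    have h3 := h.ypow_le' hx0 (by linarith) (p := -(1 / 2)) (by linarith [h.α0])
    have h4 : x ^ (-(1 / 2) : ℝ) * x = x ^ (1 / 2 : ℝ) := by
      rw [← Real.rpow_add_one hx0.ne']; norm_num
    have h5 : x ^ (1 / 2 : ℝ) ≤ 1 / 100 := by
      rw [← Real.sqrt_eq_rpow, Real.sqrt_le_left (by norm_num)]; linarith
    have h6 := mul_le_mul_of_nonneg_right h3 (pow_pos hx0 3).le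
    have h7 : x ^ (-(1 / 2) : ℝ) * x ^ 3 = x ^ (1 / 2 : ℝ) * x ^ 2 := by rw [← h4]; ring
    nlinarith [pow_pos hx0 2]
  · rw [h.eta_far a h2, abs_zero]; positivity

lemma Q_in (h : Pm X s α) (ha : ∀ i, |a i| ≤ 1) (hx : x ∈ Icc 0 (s ^ 20 / 200)) :
    (s ^ 20) ^ 3 / 4 ≤ QS (s ^ 20) a 0 x ∧ QS (s ^ 20) a 0 x ≤ 3 / 4 * (s ^ 20) ^ 3 ∧
      QS (s ^ 20) a 1 x ≤ 0 := by
  have hT := pow_pos h.s0 20
  generalize s ^ 20 = T at hx hT ⊢
  obtain ⟨u, rfl⟩ : ∃ u, x = T * u := ⟨x / T, by field_simp⟩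
  have u0 : 0 ≤ u := by have := hx.1; by_contra hc; nlinarith
  have u1 : u ≤ 1 / 200 := by have := hx.2; by_contra hc; nlinarith
  have a0 := abs_le.1 (ha 0)
  have a1 := abs_le.1 (ha 1)
  have a2 := abs_le.1 (ha 2)
  have e0 : QS T a 0 (T * u) = T ^ 3 * ((1 - u) ^ 3 / 2 +
      (a 0 - a 1 * (1 - u) + a 2 * (1 - u) ^ 2 / 2) / 50) := by simp only [QS]; ring
  have e1 : QS T a 1 (T * u) = T ^ 2 * (-(3 / 2) * (1 - u) ^ 2 + (a 1 - a 2 * (1 - u)) / 50) := by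
    simp only [QS]; ring
  rw [e0, e1]
  generalize hv : 1 - u = v
  have v0 : 199 / 200 ≤ v := by linarith
  have v1 : v ≤ 1 := by linarith
  have v2 : 9 / 10 ≤ v ^ 2 := by nlinarith
  have v2' : v ^ 2 ≤ 1 := by nlinarith
  have v3 : 8 / 10 ≤ v ^ 3 := by nlinarith
  have v3' : v ^ 3 ≤ 1 := by nlinarith
  have b1 : -1 ≤ a 1 * v ∧ a 1 * v ≤ 1 := by constructor <;> nlinarith
  have b2 : -1 ≤ a 2 * v ^ 2 ∧ a 2 * v ^ 2 ≤ 1 := by constructor <;> nlinarith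
  have b3 : -1 ≤ a 2 * v ∧ a 2 * v ≤ 1 := by constructor <;> nlinarith
  have T3 := pow_pos hT 3
  have T2 := pow_pos hT 2
  refine ⟨?_, ?_, ?_⟩
  · have : 1 / 4 ≤ v ^ 3 / 2 + (a 0 - a 1 * v + a 2 * v ^ 2 / 2) / 50 := by linarith
    nlinarith
  · have : v ^ 3 / 2 + (a 0 - a 1 * v + a 2 * v ^ 2 / 2) / 50 ≤ 3 / 4 := by linarith
    nlinarith
  · have : -(3 / 2) * v ^ 2 + (a 1 - a 2 * v) / 50 ≤ 0 := by linarith
    nlinarith

lemma ES_in (h : Pm X s α) (a : Fin 3 → ℝ) (hx : 0 ≤ x) (h2 : x < 2 * X) (j : ℕ) :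
    ES X (s ^ 56) α (s ^ 20) a j (x + s ^ 56) =
      pr (pw α) (fun j y => QS (s ^ 20) a j (y - s ^ 56)) j (x + s ^ 56) := by
  have ho := pow_pos h.s0 56
  refine IsSeq.unique (U := Ioo 0 (2 * X + s ^ 56)) isOpen_Ioo
    ((isSeq_ES _ _ _ _ _).mono fun y hy => hy.1)
    ((isSeq_pw α fun y hy => hy.1).pr fun j y _ =>
      (isSeq_QS _ a univ j _ (mem_univ (y - s ^ 56))).comp_sub_const y _) (fun y hy => ?_) j _
    ⟨by linarith, by linarith⟩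
  have h3 : chiD 0 ((y - s ^ 56) / X) = 1 :=
    chi_left (by rw [div_le_iff₀ h.X0]; linarith [hy.2])
  simp only [ES, pr_zero, cS, h3]; ring

lemma eta_in (h : Pm X s α) (ha : ∀ i, |a i| ≤ 1) (hx : x ∈ Icc 0 (s ^ 20 / 200)) :
    (s ^ 20) ^ 3 / 4 ≤ ES X (s ^ 56) α (s ^ 20) a 0 (x + s ^ 56) ∧
    (0 < x → ES X (s ^ 56) α (s ^ 20) a 0 (x + s ^ 56) ≤
      3 / 4 * (s ^ 20) ^ 3 * x ^ (-(1 / 10) : ℝ)) ∧
    |ES X (s ^ 56) α (s ^ 20) a 1 (x + s ^ 56)| ≤ 1 / 2 ∧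
    ES X (s ^ 56) α (s ^ 20) a 1 (x + s ^ 56) ≤ 0 := by
  have ho := pow_pos h.s0 56
  have hT := pow_pos h.s0 20
  have hTX := h.pw_le_X (n := 20) (by norm_num)
  have hoX := h.pw_le_X (n := 56) (by norm_num)
  have hX1 := h.X1
  have hy : 0 < x + s ^ 56 := by linarith [hx.1]
  have hx2 : x < 2 * X := by linarith [hx.2]
  have hxT : x ≤ s ^ 20 := by linarith [hx.2]
  obtain ⟨q0, q1, q2⟩ := h.Q_in ha hx
  obtain ⟨-, q3, -⟩ := QS_bound ha hT.le hx.1 le_rfl hxT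
  have T3 := pow_pos hT 3
  have p0 : 0 < (x + s ^ 56) ^ α := Real.rpow_pos_of_pos hy _
  have p1 : 1 ≤ (x + s ^ 56) ^ α :=
    Real.one_le_rpow_of_pos_of_le_one_of_nonpos hy (by linarith) h.α1
  have k1 := h.key hx.1 (by linarith)
  rw [max_eq_right hxT] at k1
  have k2 := h.ypow_T hx.1
  rw [h.ES_in a hx.1 hx2, h.ES_in a hx.1 hx2, pr_zero, pr_one, pw_zero, pw_one _ hy]
  simp only [add_sub_cancel_right]
  have k3 : 0 ≤ (x + s ^ 56) ^ α / (x + s ^ 56) * QS (s ^ 20) a 0 x := by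
    have : 0 ≤ QS (s ^ 20) a 0 x := by linarith
    positivity
  have k4 : (x + s ^ 56) ^ α / (x + s ^ 56) * QS (s ^ 20) a 0 x ≤ 1 := by
    rw [div_mul_eq_mul_div, div_le_one hy]; nlinarith
  have k5 : -(1 / 4) ≤ (x + s ^ 56) ^ α * QS (s ^ 20) a 1 x := by
    have k6 : (x + s ^ 56) ^ α * (s ^ 20) ^ 2 * s ^ 20 ≤ 1 / 8 * s ^ 20 := by
      have := h.pw_small (show 20 < 59 by norm_num)
      nlinarith
    have k7 := le_of_mul_le_mul_right k6 hT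
    nlinarith [(abs_le.1 q3).1]
  have k8 : (x + s ^ 56) ^ α * QS (s ^ 20) a 1 x ≤ 0 := mul_nonpos_of_nonneg_of_nonpos p0.le q2
  have e : α * (x + s ^ 56) ^ α / (x + s ^ 56) * QS (s ^ 20) a 0 x =
      α * ((x + s ^ 56) ^ α / (x + s ^ 56) * QS (s ^ 20) a 0 x) := by ring
  have k9 : α * ((x + s ^ 56) ^ α / (x + s ^ 56) * QS (s ^ 20) a 0 x) ≤ 0 :=
    mul_nonpos_of_nonpos_of_nonneg h.α1 k3
  have k10 : -(1 / 4) ≤ α * ((x + s ^ 56) ^ α / (x + s ^ 56) * QS (s ^ 20) a 0 x) := by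
    nlinarith [h.α0, h.α1]
  rw [e]
  refine ⟨by nlinarith, fun hx0 => ?_, abs_le.2 ⟨by linarith, by linarith⟩, by linarith⟩
  have k11 := h.ypow_le' hx0 (by linarith) (p := -(1 / 10)) (by linarith [h.α0])
  rw [mul_comm (3 / 4 * (s ^ 20) ^ 3)]
  exact mul_le_mul k11 q1 (by linarith) (p0.le.trans k11)

/-- `0 < w ≤ 2y`. -/
lemma w_bound (h : Pm X s α) (ha : ∀ i, |a i| ≤ 1) (hx : 0 ≤ x) :
    0 < Ga.wF x (ES X (s ^ 56) α (s ^ 20) a 0 (x + s ^ 56)) ∧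
      Ga.wF x (ES X (s ^ 56) α (s ^ 20) a 0 (x + s ^ 56)) ≤ 2 * (x + s ^ 56) := by
  have ho := pow_pos h.s0 56
  have hT := pow_pos h.s0 20
  have hX1 := h.X1
  unfold Ga.wF
  rcases lt_or_ge x (1 / 3) with h1 | h1
  · rw [Ga.m1_left h1, one_mul]
    rcases le_total x (s ^ 20) with h2 | h2
    · have h3 := abs_le.1 (h.eta_small ha hx h2)
      refine ⟨?_, by linarith⟩
      rcases le_total x (s ^ 20 / 200) with h4 | h4
      · have := (h.eta_in ha ⟨hx, h4⟩).1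
        have := pow_pos hT 3
        linarith
      · have := h.pw_small (show 20 < 56 by norm_num)
        linarith
    · have h3 := abs_le.1 (h.eta_big ha h2)
      have hx0 : 0 < x := by linarith
      constructor <;> nlinarith
  · rw [h.eta_far a (by linarith)]
    constructor <;> linarith

lemma om_div (h : Pm X s α) (hx : 0 < x) :
    s ^ 56 / (x + s ^ 56) ≤ s ^ 30 * x ^ (-(11 / 20) : ℝ) := by
  have ho := pow_pos h.s0 56
  have h1 : s ^ 56 / (x + s ^ 56) ≤ (s ^ 56 / x) ^ (11 / 20 : ℝ) := by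
    rcases le_total (s ^ 56) x with h2 | h2
    · refine (div_le_div_of_nonneg_left ho.le hx (by linarith)).trans ?_
      exact Real.self_le_rpow_of_le_one (by positivity) ((div_le_one hx).2 h2) (by norm_num)
    · exact ((div_le_one (by linarith)).2 (by linarith)).trans
        (Real.one_le_rpow ((one_le_div hx).2 h2) (by norm_num))
  refine h1.trans ?_
  rw [Real.div_rpow ho.le hx.le, Real.rpow_neg hx.le, div_eq_mul_inv]
  refine mul_le_mul_of_nonneg_right ?_ (by positivity)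
  rw [← Real.rpow_natCast, ← Real.rpow_mul h.s0.le, ← Real.rpow_natCast]
  exact Real.rpow_le_rpow_of_exponent_ge h.s0 h.s1 (by norm_num)

end Pm

end Crest.Agent.N207.S.Da
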