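import Crest.Agent.N207.S.Da.Bd
import Crest.Agent.N207.S.Out.Vj
/-!
Row 207 (S0320), block DATA (helper81): the jets of `V = x^(-α) η₀` on `(0, 2X)`.
-/

set_option autoImplicit false

open Set Filter
open scoped Topology ContDiff

noncomputable section
namespace Crest.Agent.N207.S.Da

open Out

lemma sz_shift {f : ℕ → ℝ → ℝ} {m : ℕ} {c x o : ℝ} (hx : 0 ≤ x) (ho : 0 ≤ o)
    (h : Sz m c f (x + o)) : Sz m c (fun j y => f j (y + o)) x := fun j hj =>
  (mul_le_mul_of_nonneg_left (pow_le_pow_left₀ hx (by linarith) j) (abs_nonneg _)).trans (h j hj)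

/-- jets of `(1 + om/x)^α - 1`. -/
def HS (α om : ℝ) : ℕ → ℝ → ℝ := fun j x =>
  pr (pw (-α)) (fun j y => pw α j (y + om)) j x - oneS j x

lemma isSeq_pw_shift (p : ℝ) {om : ℝ} (ho : 0 < om) :
    IsSeq (Ioi 0) fun j y => pw p j (y + om) :=
  isSeq_shift om (isSeq_pw p subset_rfl) fun y (hy : 0 < y) => (show 0 < y + om by linarith)

lemma isSeq_HS (α : ℝ) {om : ℝ} (ho : 0 < om) : IsSeq (Ioi 0) (HS α om) :=
  ((isSeq_pw _ subset_rfl).pr (isSeq_pw_shift α ho)).sub (isSeq_oneS _)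

lemma G_le {α om x : ℝ} (ho : 0 < om) (hx : 0 < x) (hα : α ≤ 0) :
    x ^ (-α) * (x + om) ^ α ≤ 1 := by
  have h1 : (x + om) ^ α ≤ x ^ α := Real.rpow_le_rpow_of_nonpos hx (by linarith) hα
  have h2 : x ^ (-α) * x ^ α = 1 := by rw [← Real.rpow_add hx]; simp
  rw [← h2]
  exact mul_le_mul_of_nonneg_left h1 (Real.rpow_pos_of_pos hx _).le

lemma G_ge {α om x : ℝ} (ho : 0 < om) (hx : 0 < x) (hα : -1 ≤ α) :
    1 - om / x ≤ x ^ (-α) * (x + om) ^ α := by
  have h1 : x ^ (-α) * (x + om) ^ α = ((x + om) / x) ^ α := by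
    rw [Real.div_rpow (by linarith) hx.le, Real.rpow_neg hx.le]; ring
  have h2 : ((x + om) / x) ^ (-1 : ℝ) ≤ ((x + om) / x) ^ α :=
    Real.rpow_le_rpow_of_exponent_le ((one_le_div hx).2 (by linarith)) hα
  rw [h1]
  refine le_trans ?_ h2
  rw [Real.rpow_neg_one, inv_div, le_div_iff₀ (by linarith)]
  have : (1 - om / x) * (x + om) = x - om ^ 2 / x := by field_simp; ring
  rw [this]
  have : 0 ≤ om ^ 2 / x := by positivity
  linarith

lemma sz_HS {α om x : ℝ} (ho : 0 < om) (hx : 0 < x) (h0 : -(4 / 10 ^ 6) ≤ α) (h1 : α ≤ 0) :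
    Sz 4 (om / x) (HS α om) x := by
  have hy : 0 < x + om := by linarith
  have g1 := G_le ho hx h1
  have g0 := G_ge ho hx (show -1 ≤ α by linarith)
  have e : ∀ j, sh (HS α om) j x = -(α * om) * pr (pw (-α - 1))
      (pr (fun j y => pw α j (y + om)) (fun j y => pw (-1) j (y + om))) j x := fun j =>
    IsSeq.unique isOpen_Ioi (isSeq_HS α ho).sh (((isSeq_pw _ subset_rfl).pr
      ((isSeq_pw_shift α ho).pr (isSeq_pw_shift (-1) ho))).cmul _) (fun y (hy : 0 < y) => by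
        have hy' : 0 < y + om := by linarith
        simp only [sh, HS, oneS, zero_add, pr_one, pr_zero, pw_zero, pw_one _ hy, pw_one _ hy',
          Real.rpow_sub_one hy.ne', Real.rpow_neg_one]
        field_simp
        ring) j x hx
  have s1 := sz_pw (p := -α - 1) (abs_le.2 ⟨by linarith, by linarith⟩) hx 3
  have s2 := sz_shift hx.le ho.le (sz_pw (p := α) (abs_le.2 ⟨by linarith, by linarith⟩) hy 3)
  have s3 := sz_shift hx.le ho.le (sz_pw (p := -1) (by simp) hy 3)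
  have s4 := s1.pr hx (s2.pr hx s3)
  have c : (2 : ℝ) ^ 3 * ((Nat.factorial 3 : ℕ) * x ^ (-α - 1)) * (2 ^ 3 * ((Nat.factorial 3 : ℕ) *
      (x + om) ^ α) * ((Nat.factorial 3 : ℕ) * (x + om) ^ (-1 : ℝ))) ≤ 13824 / x ^ 2 := by
    rw [Real.rpow_sub_one hx.ne', Real.rpow_neg_one]
    have e2 : (2 : ℝ) ^ 3 * ((Nat.factorial 3 : ℕ) * (x ^ (-α) / x)) * (2 ^ 3 *
        ((Nat.factorial 3 : ℕ) * (x + om) ^ α) * ((Nat.factorial 3 : ℕ) * (x + om)⁻¹)) =
        13824 * (x ^ (-α) * (x + om) ^ α) / (x * (x + om)) := by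
      simp only [Nat.factorial]; push_cast; field_simp; ring
    rw [e2]
    exact div_le_div₀ (by norm_num) (by linarith) (by positivity) (by nlinarith)
  intro j hj
  rcases j with _ | j
  · simp only [HS, oneS, pr_zero, pw_zero, pow_zero, mul_one]
    have : 0 ≤ om / x := by positivity
    exact abs_le.2 ⟨by linarith, by linarith⟩
  · have s5 := (s4 j (Nat.le_of_succ_le_succ hj)).trans c
    have e3 := e j
    simp only [sh] at e3
    rw [e3, abs_mul, abs_neg, abs_mul, abs_of_pos ho, abs_of_nonpos h1, pow_succ]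
    have s6 := mul_le_mul_of_nonneg_left s5 (show 0 ≤ -α * om * x by
      have : 0 ≤ -α := by linarith
      positivity)
    have e4 : -α * om * x * (13824 / x ^ 2) = (-α * 13824) * (om / x) := by field_simp
    have : 0 ≤ om / x := by positivity
    rw [e4] at s6
    nlinarith

namespace Pm

variable {X s α x : ℝ} {a : Fin 3 → ℝ}

/-- jets of `V`. -/
lemma V_eq (h : Pm X s α) (a : Fin 3 → ℝ) (hx : x ∈ Ioo 0 (2 * X)) (j : ℕ) :
    pr (pw (-α)) (fun i y => ES X (s ^ 56) α (s ^ 20) a i (y + s ^ 56)) j x =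
      QS (s ^ 20) a j x + pr (HS α (s ^ 56)) (QS (s ^ 20) a) j x := by
  have ho := pow_pos h.s0 56
  have sub : Ioo 0 (2 * X) ⊆ Ioi (0 : ℝ) := fun y hy => hy.1
  refine IsSeq.unique (U := Ioo 0 (2 * X)) isOpen_Ioo ((isSeq_pw _ sub).pr
    (isSeq_shift _ (isSeq_ES _ _ _ _ _) fun y hy => (show 0 < y + s ^ 56 by linarith [hy.1])))
    ((isSeq_QS _ _ _).add (((isSeq_HS α ho).mono sub).pr (isSeq_QS _ _ _))) (fun y hy => ?_) j x hx
  simp only [pr_zero, ES_zero, HS, oneS, pw_zero]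
  rw [chi_left (by rw [div_le_iff₀ h.X0]; exact hy.2.le)]
  ring

lemma V_rem (h : Pm X s α) (ha : ∀ i, |a i| ≤ 1) (hx : 0 < x) {j : ℕ} (hj : j ≤ 4) :
    |pr (HS α (s ^ 56)) (QS (s ^ 20) a) j x| * x ^ (j + 1) ≤ 384 * s ^ 56 * max x (s ^ 20) ^ 3 := by
  have h1 : Sz 4 (24 * max x (s ^ 20) ^ 3) (QS (s ^ 20) a) x := fun j _ =>
    QS_wt ha (pow_pos h.s0 20).le hx.le (le_max_right _ _) (le_max_left _ _) hx.le
      (by linarith [le_max_left x (s ^ 20)]) j
  have h2 := mul_le_mul_of_nonneg_right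
    ((sz_HS (pow_pos h.s0 56) hx h.α0 h.α1).pr hx h1 j hj) hx.le
  refine le_trans (le_of_eq (by ring)) (h2.trans (le_of_eq ?_))
  field_simp
  ring

lemma V4 (h : Pm X s α) (ha : ∀ i, |a i| ≤ 1) (h1 : s ^ 21 ≤ x) :
    |pr (HS α (s ^ 56)) (QS (s ^ 20) a) 4 x| ≤ 1 := by
  have hs := h.s0
  have hx : 0 < x := (pow_pos hs 21).trans_le h1
  have h2 := h.V_rem ha hx (le_refl 4)
  refine le_of_mul_le_mul_right (h2.trans ?_) (pow_pos hx (4 + 1))
  rcases le_total x (s ^ 20) with h3 | h3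
  · rw [max_eq_right h3]
    have h4 := pow_le_pow_left₀ (pow_pos hs 21).le h1 5
    have h5 := h.pw_small (show 105 < 116 by norm_num)
    have := pow_pos hs 105
    have e1 : (s ^ 21) ^ 5 = s ^ 105 := by ring
    have e2 : 384 * s ^ 56 * (s ^ 20) ^ 3 = 384 * s ^ 116 := by ring
    rw [e2]
    norm_num
    linarith
  · rw [max_eq_left h3]
    have h4 := pow_le_pow_left₀ (pow_pos hs 20).le h3 2
    have h5 := h.pw_small (show 40 < 56 by norm_num)
    have := pow_pos hs 40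
    have e1 : (s ^ 20) ^ 2 = s ^ 40 := by ring
    have h6 : 384 * s ^ 56 ≤ x ^ 2 := by linarith
    have := mul_le_mul_of_nonneg_right h6 (pow_pos hx 3).le
    norm_num
    nlinarith

lemma V3 (h : Pm X s α) (ha : ∀ i, |a i| ≤ 1) :
    |pr (HS α (s ^ 56)) (QS (s ^ 20) a) 3 X| ≤ 1 / 400 := by
  have hX := h.X0
  have h2 := h.V_rem ha hX (show 3 ≤ 4 by norm_num)
  rw [max_eq_left (h.pw_le_X (by norm_num))] at h2
  refine le_of_mul_le_mul_right (h2.trans ?_) (pow_pos hX (3 + 1))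
  have h5 := h.pw_small (show 1 < 56 by norm_num)
  have h6 : 384 * s ^ 56 ≤ 1 / 400 * X := by linarith [h.sX, h.s0, pow_one s]
  have := mul_le_mul_of_nonneg_right h6 (pow_pos hX 3).le
  nlinarith

lemma Vn (h : Pm X s α) (ha : ∀ i, |a i| ≤ 1) (j : Fin 3) :
    |(QS (s ^ 20) a j (s ^ 20) + pr (HS α (s ^ 56)) (QS (s ^ 20) a) j (s ^ 20)) /
      (s ^ 20) ^ (3 - (j : ℕ)) - a j / 50| < 1 / 100 := by
  have hT := pow_pos h.s0 20
  have h2 := h.V_rem ha hT (j := j) (by omega)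
  rw [max_self] at h2
  have h3 : QS (s ^ 20) a j (s ^ 20) = a j / 50 * (s ^ 20) ^ (3 - (j : ℕ)) := by
    fin_cases j <;> simp [QS] <;> ring
  have h5 := h.pw_small (show 20 < 56 by norm_num)
  have h4 : 384 * s ^ 56 ≤ 1 / 200 * s ^ 20 := by linarith
  generalize pr (HS α (s ^ 56)) (QS (s ^ 20) a) j (s ^ 20) = R at h2 ⊢
  rw [h3]
  generalize s ^ 20 = T at h2 h4 hT ⊢
  have hp := pow_pos hT (3 - (j : ℕ))
  have e : (a j / 50 * T ^ (3 - (j : ℕ)) + R) / T ^ (3 - (j : ℕ)) - a j / 50 =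
      R / T ^ (3 - (j : ℕ)) := by field_simp; ring
  rw [e, abs_div, abs_of_pos hp, div_lt_iff₀ hp]
  refine lt_of_mul_lt_mul_right (h2.trans_lt ?_) (pow_pos hT ((j : ℕ) + 1)).le
  have e2 : 1 / 100 * T ^ (3 - (j : ℕ)) * T ^ ((j : ℕ) + 1) = 1 / 100 * T * T ^ 3 := by
    rw [mul_assoc, ← pow_add, show 3 - (j : ℕ) + ((j : ℕ) + 1) = 4 by omega]; ring
  rw [e2]
  have := mul_le_mul_of_nonneg_right h4 (pow_pos hT 3).le
  have := mul_pos hT (pow_pos hT 3)
  nlinarith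

end Pm

end Crest.Agent.N207.S.Da
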