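import Crest.Agent.N207.S.Top.Defs
/-!
Row 207 (S0320), block DATA (helper81): derivative sequences of the initial data and their sizes.
All sequences are written in the variable `y = x + om`.
-/

set_option autoImplicit false

open Set Filter
open scoped Topology ContDiff

noncomputable section
namespace Crest.Agent.N207.S.Da

open Out

/-- jets from a chain of derivatives. -/
lemma jet_eq {E : Type*} [NormedAddCommGroup E] [NormedSpace ℝ E] {F : ℕ → ℝ → E} {f : ℝ → E}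
    (hF : ∀ j, ∀ x ∈ Icc (0 : ℝ) 1, HasDerivAt (F j) (F (j + 1) x) x)
    (hf : ∀ x ∈ Icc (0 : ℝ) 1, f x = F 0 x) (j : ℕ) : ∀ x ∈ Icc (0 : ℝ) 1, Ex.jet j f x = F j x := by
  induction j with
  | zero => intro x hx; simpa [Ex.jet] using hf x hx
  | succ j ih =>
    intro x hx
    unfold Ex.jet at ih ⊢
    rw [iteratedDerivWithin_succ, derivWithin_congr (f := F j) ih (ih x hx)]
    exact (hF j x hx).hasDerivWithinAt.derivWithin (uniqueDiffOn_Icc zero_lt_one x hx)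

/-- the cut-off `χ` (`= 1` on `y ≤ 2`, `= 0` on `y ≥ 3`). -/
def chi (y : ℝ) : ℝ := Real.smoothTransition (3 - y)

lemma contDiff_chi : ContDiff ℝ ∞ chi := Real.smoothTransition.contDiff.comp (by fun_prop)

/-- derivatives of `χ`. -/
def chiD (j : ℕ) : ℝ → ℝ := deriv^[j] chi

lemma isSeq_chiD : IsSeq univ chiD :=
  isSeq_iter isOpen_univ fun n => (contDiff_chi.of_le (by exact_mod_cast le_top)).contDiffOn

/-- jets of the constant `1`. -/
def oneS : ℕ → ℝ → ℝ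
  | 0, _ => 1
  | _ + 1, _ => 0

lemma isSeq_oneS (U : Set ℝ) : IsSeq U oneS := by
  intro j x _
  rcases j with _ | j <;> exact hasDerivAt_const x _

lemma isSeq_zero (U : Set ℝ) : IsSeq U (fun _ _ => 0) := fun _ x _ => hasDerivAt_const x _

lemma chiD_cont (j : ℕ) : Continuous (chiD j) :=
  continuous_iff_continuousAt.2 fun x => (isSeq_chiD j x (mem_univ x)).continuousAt

lemma chiD_right (j : ℕ) {y : ℝ} (hy : 3 < y) : chiD j y = 0 :=
  IsSeq.unique isOpen_Ioi (isSeq_chiD.mono (subset_univ _)) (isSeq_zero (Ioi 3))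
    (fun x hx => Real.smoothTransition.zero_of_nonpos (by have : 3 < x := hx; linarith)) j y hy

lemma chi_left {y : ℝ} (hy : y ≤ 2) : chi y = 1 :=
  Real.smoothTransition.one_of_one_le (by linarith)

lemma chi_nonneg (y : ℝ) : 0 ≤ chi y := Real.smoothTransition.nonneg _
lemma chi_le_one (y : ℝ) : chi y ≤ 1 := Real.smoothTransition.le_one _

lemma exists_chi_bound (m : ℕ) : ∃ C : ℝ, 1 ≤ C ∧ ∀ j ≤ m, ∀ y, 0 ≤ y → |chiD j y| ≤ C := by
  have h1 : ∀ j, ∃ C : ℝ, ∀ y, 0 ≤ y → |chiD j y| ≤ C := by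
    intro j
    obtain ⟨C, hC⟩ := isCompact_Icc.exists_bound_of_continuousOn (s := Icc (0 : ℝ) 3)
      (chiD_cont j).continuousOn
    refine ⟨max C 0, fun y hy => ?_⟩
    rcases le_or_gt y 3 with h | h
    · exact (hC y ⟨hy, h⟩).trans (le_max_left _ _)
    · rw [chiD_right j h, abs_zero]; exact le_max_right _ _
  choose C hC using h1
  refine ⟨1 + ∑ j ∈ Finset.range (m + 1), |C j|, ?_, fun j hj y hy => ?_⟩
  · have : 0 ≤ ∑ j ∈ Finset.range (m + 1), |C j| := Finset.sum_nonneg fun _ _ => abs_nonneg _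
    linarith
  · have := Finset.single_le_sum (f := fun j => |C j|) (fun _ _ => abs_nonneg _)
      (Finset.mem_range.2 (Nat.lt_succ_of_le hj))
    linarith [hC j y hy, le_abs_self (C j)]

/-- jets of `y ↦ χ((y - om)/X)`. -/
def cS (X om : ℝ) : ℕ → ℝ → ℝ := fun j y => chiD j ((y - om) / X) / X ^ j

lemma isSeq_cS (X om : ℝ) (U : Set ℝ) : IsSeq U (cS X om) := by
  intro j y _
  have h1 : HasDerivAt (fun y : ℝ => (y - om) / X) (1 / X) y :=
    ((hasDerivAt_id y).sub_const om).div_const X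
  have h2 := ((isSeq_chiD j _ (mem_univ ((y - om) / X))).comp y h1).div_const (X ^ j)
  refine h2.congr_deriv ?_
  simp only [cS, pow_succ]
  ring

lemma cS_right {X om y : ℝ} (hX : 0 < X) (hy : 3 * X < y - om) (j : ℕ) : cS X om j y = 0 := by
  simp only [cS]
  rw [chiD_right j (by rw [lt_div_iff₀ hX]; exact hy), zero_div]

lemma sz_cS {X om y C : ℝ} {m : ℕ} (hX : 0 < X) (ho0 : 0 ≤ om) (ho : om ≤ X) (hy : om ≤ y)
    (hC : ∀ j ≤ m, ∀ y, 0 ≤ y → |chiD j y| ≤ C) : Sz m (4 ^ m * C) (cS X om) y := by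
  intro j hj
  have hC0 : 0 ≤ C := (abs_nonneg _).trans (hC 0 (Nat.zero_le _) 0 le_rfl)
  rcases le_or_gt (y - om) (3 * X) with h | h
  · have h1 := hC j hj ((y - om) / X) (div_nonneg (by linarith) hX.le)
    have h2 : (y / X) ^ j ≤ 4 ^ m :=
      (pow_le_pow_left₀ (div_nonneg (by linarith) hX.le)
        (by rw [div_le_iff₀ hX]; linarith) j).trans (pow_le_pow_right₀ (by norm_num) hj)
    have e : |cS X om j y| * y ^ j = (y / X) ^ j * |chiD j ((y - om) / X)| := by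
      simp only [cS, abs_div, abs_of_pos (pow_pos hX j), div_pow]; ring
    rw [e]
    exact mul_le_mul h2 h1 (abs_nonneg _) (by positivity)
  · rw [cS_right hX h, abs_zero, zero_mul]; positivity

/-- jets of the cubic `Q` (variable `x`). -/
def QS (T : ℝ) (a : Fin 3 → ℝ) : ℕ → ℝ → ℝ
  | 0, x => (T - x) ^ 3 / 2 + (a 0 * T ^ 3 + a 1 * T ^ 2 * (x - T) + a 2 * T * (x - T) ^ 2 / 2) / 50
  | 1, x => -(3 / 2) * (T - x) ^ 2 + (a 1 * T ^ 2 + a 2 * T * (x - T)) / 50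
  | 2, x => 3 * (T - x) + a 2 * T / 50
  | 3, _ => -3
  | _ + 4, _ => 0

lemma isSeq_QS (T : ℝ) (a : Fin 3 → ℝ) (U : Set ℝ) : IsSeq U (QS T a) := by
  intro j x _
  have h1 : HasDerivAt (fun x : ℝ => T - x) (-1) x := by simpa using (hasDerivAt_id x).const_sub T
  have h2 : HasDerivAt (fun x : ℝ => x - T) 1 x := (hasDerivAt_id x).sub_const T
  match j with
  | 0 =>
    exact (((h1.pow 3).div_const 2).add ((((hasDerivAt_const x (a 0 * T ^ 3)).add
      (h2.const_mul (a 1 * T ^ 2))).add (((h2.pow 2).const_mul (a 2 * T)).div_const 2)).div_const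
      50)).congr_deriv (by simp only [QS]; push_cast; ring)
  | 1 =>
    exact (((h1.pow 2).const_mul (-(3 / 2))).add (((hasDerivAt_const x (a 1 * T ^ 2)).add
      (h2.const_mul (a 2 * T))).div_const 50)).congr_deriv (by simp only [QS]; push_cast; ring)
  | 2 =>
    exact ((h1.const_mul 3).add (hasDerivAt_const x (a 2 * T / 50))).congr_deriv
      (by simp only [QS]; ring)
  | 3 => exact hasDerivAt_const x _
  | _ + 4 => exact hasDerivAt_const x _

lemma QS_bound {T x M : ℝ} {a : Fin 3 → ℝ} (ha : ∀ i, |a i| ≤ 1) (hT : 0 ≤ T) (hx : 0 ≤ x)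
    (hTM : T ≤ M) (hxM : x ≤ M) :
    |QS T a 0 x| ≤ M ^ 3 ∧ |QS T a 1 x| ≤ 2 * M ^ 2 ∧ |QS T a 2 x| ≤ 4 * M := by
  have hM : 0 ≤ M := hT.trans hTM
  have h1 : |x - T| ≤ M := abs_le.2 ⟨by linarith, by linarith⟩
  have h2 : |T - x| ≤ M := by rwa [abs_sub_comm]
  have hT' : |T| ≤ M := by rwa [abs_of_nonneg hT]
  have p : ∀ (u : ℝ) (n : ℕ), |u| ≤ M → |u ^ n| ≤ M ^ n := fun u n h => by
    rw [abs_pow]; exact pow_le_pow_left₀ (abs_nonneg _) h n
  have q : ∀ (i : Fin 3) (u v A B : ℝ), |u| ≤ A → |v| ≤ B → |a i * u * v| ≤ A * B :=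
    fun i u v A B hu hv => by
      rw [abs_mul, abs_mul]
      have := mul_le_mul (mul_le_mul (ha i) hu (abs_nonneg _) zero_le_one) hv (abs_nonneg _)
        (by have := (abs_nonneg u).trans hu; positivity)
      linarith
  have b0 := abs_le.1 (q 0 (T ^ 3) 1 _ _ (p T 3 hT') (le_of_eq abs_one))
  have b1 := abs_le.1 (q 1 (T ^ 2) (x - T) _ _ (p T 2 hT') h1)
  have b2 := abs_le.1 (q 2 T ((x - T) ^ 2) _ _ hT' (p _ 2 h1))
  have b3 := abs_le.1 (q 1 (T ^ 2) 1 _ _ (p T 2 hT') (le_of_eq abs_one))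
  have b4 := abs_le.1 (q 2 T (x - T) _ _ hT' h1)
  have b5 := abs_le.1 (q 2 T 1 _ _ hT' (le_of_eq abs_one))
  have c3 := abs_le.1 (p _ 3 h2)
  have c2 := abs_le.1 (p _ 2 h2)
  have c1 := abs_le.1 h2
  have m3 : 0 ≤ M ^ 3 := by positivity
  have m2 : 0 ≤ M ^ 2 := by positivity
  simp only [QS]
  refine ⟨abs_le.2 ⟨?_, ?_⟩, abs_le.2 ⟨?_, ?_⟩, abs_le.2 ⟨?_, ?_⟩⟩ <;> nlinarith

/-- size of `Q` for any weight `y ≤ 2M`. -/
lemma QS_wt {T x M y : ℝ} {a : Fin 3 → ℝ} (ha : ∀ i, |a i| ≤ 1) (hT : 0 ≤ T) (hx : 0 ≤ x)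
    (hTM : T ≤ M) (hxM : x ≤ M) (hy : 0 ≤ y) (hyM : y ≤ 2 * M) (j : ℕ) :
    |QS T a j x| * y ^ j ≤ 24 * M ^ 3 := by
  have hM : 0 ≤ M := hT.trans hTM
  obtain ⟨h0, h1, h2⟩ := QS_bound ha hT hx hTM hxM
  have m3 : 0 ≤ M ^ 3 := by positivity
  match j with
  | 0 => simp only [pow_zero, mul_one]; linarith
  | 1 =>
    have := mul_le_mul h1 hyM hy (by positivity)
    simp only [pow_one]; nlinarith
  | 2 =>
    have := mul_le_mul h2 (pow_le_pow_left₀ hy hyM 2) (by positivity) (by positivity)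
    nlinarith
  | 3 =>
    have := pow_le_pow_left₀ hy hyM 3
    simp only [QS, abs_neg, Nat.abs_ofNat]; nlinarith
  | _ + 4 => simp only [QS, abs_zero, zero_mul]; positivity

/-- jets of `η₀` in the variable `y = x + om`. -/
def ES (X om α T : ℝ) (a : Fin 3 → ℝ) : ℕ → ℝ → ℝ :=
  pr (pr (cS X om) (pw α)) fun j y => QS T a j (y - om)

lemma isSeq_shift {f : ℕ → ℝ → ℝ} {U V : Set ℝ} (c : ℝ) (hf : IsSeq V f)
    (h : ∀ y ∈ U, y + c ∈ V) : IsSeq U fun j y => f j (y + c) := fun j y hy =>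
  (hf j _ (h y hy)).comp_add_const y c

lemma isSeq_ES (X om α T : ℝ) (a : Fin 3 → ℝ) : IsSeq (Ioi 0) (ES X om α T a) :=
  ((isSeq_cS X om _).pr (isSeq_pw α subset_rfl)).pr fun j y _ =>
    (isSeq_QS T a univ j _ (mem_univ (y - om))).comp_sub_const y om

lemma ES_zero (X om α T : ℝ) (a : Fin 3 → ℝ) (x : ℝ) :
    ES X om α T a 0 (x + om) = chi (x / X) * (x + om) ^ α * QS T a 0 x := by
  simp only [ES, pr_zero, cS, pw_zero, add_sub_cancel_right, pow_zero, div_one]; rfl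

lemma sz_ES {X om α T x M C : ℝ} {a : Fin 3 → ℝ} {m : ℕ} (hX : 0 < X) (ho0 : 0 < om) (ho : om ≤ X)
    (hα : |α| ≤ 1) (ha : ∀ i, |a i| ≤ 1) (hoT : om ≤ T) (hx : 0 ≤ x) (hTM : T ≤ M) (hxM : x ≤ M)
    (hC : ∀ j ≤ m, ∀ y, 0 ≤ y → |chiD j y| ≤ C) :
    Sz m (2 ^ m * (2 ^ m * (4 ^ m * C) * (m.factorial * (x + om) ^ α)) * (24 * M ^ 3))
      (ES X om α T a) (x + om) := by
  have hy : 0 < x + om := by linarith
  refine Sz.pr hy (Sz.pr hy (sz_cS hX ho0.le ho (by linarith) hC) (sz_pw hα hy m)) fun j _ => ?_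
  simp only [add_sub_cancel_right]
  exact QS_wt ha (by linarith) hx hTM hxM hy.le (by linarith) j

end Crest.Agent.N207.S.Da
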