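import Crest.Agent.N207.S.Da.Out
import Crest.Agent.N207.S.Ga.X
/-!
Row 207 (S0320), block DATA (helper81): `dataStmt : Top.DataStmt`.
-/

set_option autoImplicit false

open Set Filter
open scoped Topology ContDiff

noncomputable section
namespace Crest.Agent.N207.S.Da

open Out Ga

/-- a vector of `E3`. -/
def vec (a b c : ℝ) : E3 :=
  a • EuclideanSpace.single 0 1 + b • EuclideanSpace.single 1 1 + c • EuclideanSpace.single 2 1

lemma vec0 (a b c : ℝ) : vec a b c 0 = a := by simp [vec]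
lemma vec1 (a b c : ℝ) : vec a b c 1 = b := by simp [vec]
lemma vec2 (a b c : ℝ) : vec a b c 2 = c := by simp [vec]

lemma norm_vec (a b c : ℝ) : ‖vec a b c‖ ≤ |a| + |b| + |c| := by
  unfold vec
  refine norm_add₃_le.trans (le_of_eq ?_)
  simp [norm_smul]

/-- clamping to `[-1,1]`. -/
def cl (p : Fin 3 → ℝ) : Fin 3 → ℝ := fun i => max (-1) (min 1 (p i))

lemma abs_cl (p : Fin 3 → ℝ) (i : Fin 3) : |cl p i| ≤ 1 :=
  abs_le.2 ⟨le_max_left _ _, max_le (by norm_num) (min_le_left _ _)⟩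

/-- jets of the initial data. -/
def UU (X s d α : ℝ) (p : Fin 3 → ℝ) (j : ℕ) (x : ℝ) : E3 :=
  vec (ES X (s ^ 56) α (s ^ 20) (cl p) j (x + s ^ 56))
    (ES X (s ^ 56) α (s ^ 20) (cl p) (j + 1) (x + s ^ 56)) (d * pw (-1) j (x + s ^ 56))

section

variable {X s d α : ℝ}

lemma seqE (hs : 0 < s) (X α : ℝ) (a : Fin 3 → ℝ) :
    IsSeq (Ioi (-s ^ 56)) fun j x => ES X (s ^ 56) α (s ^ 20) a j (x + s ^ 56) :=
  isSeq_shift _ (isSeq_ES _ _ _ _ _) fun y (hy : -s ^ 56 < y) => (show 0 < y + s ^ 56 by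
    have := hs; linarith)

lemma seqK (hs : 0 < s) (d : ℝ) : IsSeq (Ioi (-s ^ 56)) fun j x => d * pw (-1) j (x + s ^ 56) :=
  (isSeq_shift _ (isSeq_pw _ subset_rfl) fun y (hy : -s ^ 56 < y) => (show 0 < y + s ^ 56 by
    have := hs; linarith)).cmul d

lemma sub01 (hs : 0 < s) : Icc (0 : ℝ) 1 ⊆ Ioi (-s ^ 56) := fun x hx =>
  lt_of_lt_of_le (by simpa using pow_pos hs 56) hx.1

lemma hd_UU (hs : 0 < s) (X d α : ℝ) (p : Fin 3 → ℝ) (j : ℕ) (x : ℝ) (hx : x ∈ Icc (0 : ℝ) 1) :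
    HasDerivAt (UU X s d α p j) (UU X s d α p (j + 1) x) x :=
  (((seqE hs X α _ j x (sub01 hs hx)).smul_const _).add
    ((seqE hs X α _ (j + 1) x (sub01 hs hx)).smul_const _)).add
    ((seqK hs d j x (sub01 hs hx)).smul_const _)

lemma cd_of_seq {f : ℕ → ℝ → ℝ} (hs : 0 < s) (hf : IsSeq (Ioi (-s ^ 56)) f) :
    ContDiffOn ℝ ∞ (f 0) (Icc 0 1) :=
  (contDiffOn_infty.2 fun n => hf.contDiffOn isOpen_Ioi n).mono (sub01 hs)

lemma cd_UU (hs : 0 < s) (X d α : ℝ) (p : Fin 3 → ℝ) :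
    ContDiffOn ℝ ∞ (UU X s d α p 0) (Icc 0 1) :=
  (((cd_of_seq hs (seqE hs X α _)).smul contDiffOn_const).add
    ((cd_of_seq hs (seqE hs X α _).sh).smul contDiffOn_const)).add
    ((cd_of_seq hs (seqK hs d)).smul contDiffOn_const)

lemma cont_UU (hs : 0 < s) (X d α : ℝ) (p : Fin 3 → ℝ) (x : ℝ) (hx : x ∈ Icc (0 : ℝ) 1) :
    ContinuousAt (fun z : (Fin 3 → ℝ) × ℝ => UU X s d α z.1 0 z.2) (p, x) := by
  have hy : x + s ^ 56 ∈ Ioi (0 : ℝ) := by
    have := pow_pos hs 56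
    have := hx.1
    simp only [mem_Ioi]; linarith
  have lift : ∀ {f : ℝ → ℝ}, ContinuousAt f (x + s ^ 56) →
      ContinuousAt (fun z : (Fin 3 → ℝ) × ℝ => f (z.2 + s ^ 56)) (p, x) := fun {f} hf =>
    ContinuousAt.comp (f := fun z : (Fin 3 → ℝ) × ℝ => z.2 + s ^ 56) hf (by fun_prop)
  have hP := (isSeq_cS X (s ^ 56) _).pr (isSeq_pw α (subset_refl (Ioi 0)))
  have p0 := lift (hP 0 _ hy).continuousAt
  have p1 := lift (hP 1 _ hy).continuousAt
  have k0 := lift (isSeq_pw (-1) (subset_refl (Ioi 0)) 0 _ hy).continuousAt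
  have q0 : ContinuousAt (fun z : (Fin 3 → ℝ) × ℝ =>
      QS (s ^ 20) (cl z.1) 0 (z.2 + s ^ 56 - s ^ 56)) (p, x) := by
    simp only [QS, cl]; fun_prop
  have q1 : ContinuousAt (fun z : (Fin 3 → ℝ) × ℝ =>
      QS (s ^ 20) (cl z.1) 1 (z.2 + s ^ 56 - s ^ 56)) (p, x) := by
    simp only [QS, cl]; fun_prop
  exact (((p0.mul q0).smul continuousAt_const).add
    (((p1.mul q0).add (p0.mul q1)).smul continuousAt_const)).add
    ((continuousAt_const.mul k0).smul continuousAt_const)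

lemma abs_k {y : ℝ} (hy : 0 < y) (hd : 0 ≤ d) {j m : ℕ} (hj : j ≤ m) :
    |d * pw (-1) j y| * y ^ (j + 1) ≤ m.factorial * d := by
  have h1 := mul_le_mul_of_nonneg_right (sz_pw (p := -1) (by simp) hy m j hj) hy.le
  rw [Real.rpow_neg_one, mul_assoc _ y⁻¹, inv_mul_cancel₀ hy.ne', mul_one] at h1
  rw [abs_mul, abs_of_nonneg hd, pow_succ]
  nlinarith

/-- size constant. -/
def KE (m : ℕ) (C : ℝ) : ℝ := 2 ^ m * (2 ^ m * (4 ^ m * C) * m.factorial) * 24

lemma abs_E (h : Pm X s α) {a : Fin 3 → ℝ} (ha : ∀ i, |a i| ≤ 1) {m : ℕ} {C x : ℝ} (hC1 : 1 ≤ C)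
    (hC : ∀ j ≤ m, ∀ y, 0 ≤ y → |chiD j y| ≤ C) (hx : x ∈ Icc (0 : ℝ) 1) {j : ℕ} (hj : j ≤ m) :
    |ES X (s ^ 56) α (s ^ 20) a j (x + s ^ 56)| * (x + s ^ 56) ^ j ≤ KE m C * (x + s ^ 56) := by
  have h1 := sz_ES (X := X) (α := α) h.X0 (pow_pos h.s0 56) (h.pw_le_X (by norm_num)) h.abs_α ha
    (h.pw_le (show 20 ≤ 56 by norm_num)) hx.1 (le_max_right x _) (le_max_left _ _) hC j hj
  refine h1.trans ?_
  have h2 := mul_le_mul_of_nonneg_left (h.key hx.1 hx.2) (show 0 ≤ KE m C by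
    unfold KE; positivity)
  refine le_trans (le_of_eq ?_) h2
  unfold KE; ring

lemma le_div_of_wt {u y o K : ℝ} {j : ℕ} (ho : 0 < o) (hy : o ≤ y) (h : |u| * y ^ j ≤ K) :
    |u| ≤ K / o ^ j := by
  rw [le_div_iff₀ (pow_pos ho j)]
  exact (mul_le_mul_of_nonneg_left (pow_le_pow_left₀ ho.le hy j) (abs_nonneg _)).trans h

end

theorem dataStmt : Top.DataStmt := by
  obtain ⟨C, hC1, hC⟩ := exists_chi_bound 41
  have hK : 0 ≤ KE 41 C := by unfold KE; positivity
  obtain ⟨N, hN⟩ : ∃ N : ℝ, N = (Nat.factorial 40 : ℕ) := ⟨_, rfl⟩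
  have hN0 : 0 ≤ N := by rw [hN]; positivity
  refine ⟨1 + 2 ^ 41 * (KE 41 C + 2 * N), by
    have : 0 ≤ 2 ^ 41 * (KE 41 C + 2 * N) := by positivity
    linarith, fun X hX hX1 => ⟨X ^ 20, by positivity, fun e d α T hp hT hT0 => ?_⟩⟩
  obtain ⟨s, hs, rfl⟩ : ∃ s : ℝ, 0 < s ∧ T = s ^ 20 :=
    ⟨T ^ ((20 : ℕ) : ℝ)⁻¹, Real.rpow_pos_of_pos hT _,
      (Real.rpow_inv_natCast_pow hT.le (by norm_num)).symm⟩
  have d0 := hp.d0
  have d1 := hp.d1
  have e0 := hp.e0
  have h : Pm X s α := ⟨hs, (pow_le_pow_iff_left₀ hs.le hX.le (by norm_num)).1 hT0, hX1,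
    by linarith [hp.α0], hp.α1⟩
  have ho := pow_pos hs 56
  have hoX := h.pw_le_X (n := 56) (by norm_num)
  have hTX := h.pw_le_X (n := 20) (by norm_num)
  have rp : ∀ (r : ℝ) (n : ℕ), 20 * r = n → (s ^ 20) ^ r = s ^ n := fun r n hr => by
    rw [← Real.rpow_natCast s 20, ← Real.rpow_mul hs.le, ← Real.rpow_natCast]
    congr 1
  have de : d ≤ 2 * e := by
    rw [hp.hd]; exact div_le_self (by positivity) (by linarith)
  refine ⟨fun p => UU X s d α p 0, cd_UU hs X d α, fun p x hx => ?_, fun j => ?_,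
    fun p ε hε => ?_, fun p U hU => ?_⟩
  · have hy : 0 < x + s ^ 56 := by linarith [hx.1]
    refine mem_Om hx (fun h3 => ?_) ?_ ?_
    · simp only [UU, vec0]
      rw [h.eta_far _ (by linarith), abs_zero]; exact del0_pos.le
    · simp only [UU, vec0]; exact (h.w_bound (abs_cl p) hx.1).1
    · simp only [UU, vec2, pw_zero, Real.rpow_neg_one]
      have h1 : m0 x ≤ 3 * x := by
        rcases le_total x (1 / 3) with h2 | h2
        · rw [m0_left h2]; linarith [hx.1]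
        · have := st_nonneg x
          have := st_le_one x
          unfold m0; nlinarith [hx.2]
      have h2 : m0 x * (x + s ^ 56)⁻¹ ≤ 3 := by
        rw [← div_eq_mul_inv, div_le_iff₀ hy]; linarith
      nlinarith
  · obtain ⟨C', hC1', hC'⟩ := exists_chi_bound (j + 1)
    refine ⟨KE (j + 1) C' * 2 / (s ^ 56) ^ j + KE (j + 1) C' * 2 / (s ^ 56) ^ (j + 1) +
      j.factorial * d / (s ^ 56) ^ (j + 1), fun p x hx => ?_⟩
    have hK' : 0 ≤ KE (j + 1) C' := by unfold KE; positivity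
    have hy : KE (j + 1) C' * (x + s ^ 56) ≤ KE (j + 1) C' * 2 :=
      mul_le_mul_of_nonneg_left (by linarith [hx.2]) hK'
    have hy0 : s ^ 56 ≤ x + s ^ 56 := by linarith [hx.1]
    rw [jet_eq (hd_UU hs X d α p) (fun _ _ => rfl) j x hx]
    refine (norm_vec _ _ _).trans (add_le_add (add_le_add ?_ ?_) ?_)
    · exact le_div_of_wt ho hy0 ((abs_E h (abs_cl p) hC1' hC' hx (Nat.le_succ j)).trans hy)
    · exact le_div_of_wt ho hy0 ((abs_E h (abs_cl p) hC1' hC' hx le_rfl).trans hy)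
    · exact le_div_of_wt ho hy0 (abs_k (by linarith) d0.le le_rfl)
  · refine isCompact_Icc.eventually_forall_of_forall_eventually fun x hx => ?_
    have h1 : ContinuousAt (fun z : (Fin 3 → ℝ) × ℝ => UU X s d α p 0 z.2) (p, x) :=
      ContinuousAt.comp (g := UU X s d α p 0) (f := fun z : (Fin 3 → ℝ) × ℝ => z.2) (x := (p, x))
        (hd_UU hs X d α p 0 x hx).continuousAt continuousAt_snd
    have h2 := ((cont_UU hs X d α p x hx).sub h1).norm
    exact (h2.eventually (ge_mem_nhds (by simpa using hε)))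
  · have c0 : ∀ j, ∀ x ∈ Icc (0 : ℝ) 1,
        cj U 0 j 0 x = ES X (s ^ 56) α (s ^ 20) (cl p) j (x + s ^ 56) := fun j =>
      jet_eq (F := fun j x => ES X (s ^ 56) α (s ^ 20) (cl p) j (x + s ^ 56))
        (fun j x hx => seqE hs X α _ j x (sub01 hs hx))
        (fun x hx => by rw [hU x hx]; simp only [UU, vec0]) j
    have c2 : ∀ j, ∀ x ∈ Icc (0 : ℝ) 1, cj U 2 j 0 x = d * pw (-1) j (x + s ^ 56) := fun j =>
      jet_eq (F := fun j x => d * pw (-1) j (x + s ^ 56))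
        (fun j x hx => seqK hs d j x (sub01 hs hx))
        (fun x hx => by rw [hU x hx]; simp only [UU, vec2]) j
    have u0 : ∀ x ∈ Icc (0 : ℝ) 1, U 0 x 0 = ES X (s ^ 56) α (s ^ 20) (cl p) 0 (x + s ^ 56) :=
      fun x hx => by rw [hU x hx]; simp only [UU, vec0]
    have hV : ∀ j, ∀ x ∈ Ioo 0 (2 * X), VV α (Top.wT U) j 0 x =
        QS (s ^ 20) (cl p) j x + pr (HS α (s ^ 56)) (QS (s ^ 20) (cl p)) j x := by
      intro j x hx
      have hx' : x ∈ Icc (0 : ℝ) 1 := ⟨hx.1.le, by linarith [hx.2]⟩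
      rw [← h.V_eq _ hx]
      refine mulS_congr j fun i => ?_
      rw [← c0 i x hx']
      rcases i with _ | _ | i
      · rw [WS_zero]; simp [Top.wT, Top.idS]
      · rw [WS_one]; simp [Top.wT, Top.idS]
      · rw [WS_high]; simp [Top.wT, Top.idS]
    have in01 : ∀ x ∈ Icc 0 (s ^ 20 / 200), x ∈ Icc (0 : ℝ) 1 := fun x hx =>
      ⟨hx.1, by linarith [hx.2]⟩
    refine ⟨fun x hx => ?_, fun x hx j hj => ?_, fun x hx => ?_, ⟨fun x hx => ?_, fun x hx => ?_,
      fun x hx => ?_⟩, ⟨fun x hx => ?_, ?_⟩, fun j => ?_⟩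
    · rw [c0 1 x hx, hU x hx]; simp only [UU, vec1]
    · have hy : 0 < x + s ^ 56 := by linarith [hx.1]
      obtain ⟨w0, w1⟩ := h.w_bound (X := X) (α := α) (abs_cl p) hx.1
      have a0 : Ex.jet (j + 1) (fun y => U 0 y 0) x = _ := c0 (j + 1) x hx
      have a2 : Ex.jet j (fun y => U 0 y 2) x = _ := c2 j x hx
      rw [a0, a2, u0 x hx]
      have hw : ∀ i ≤ 41, wF x (ES X (s ^ 56) α (s ^ 20) (cl p) 0 (x + s ^ 56)) ^ i ≤
          2 ^ 41 * (x + s ^ 56) ^ i := fun i hi => by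
        refine (pow_le_pow_left₀ w0.le w1 i).trans ?_
        rw [mul_pow]
        exact mul_le_mul_of_nonneg_right (pow_le_pow_right₀ (by norm_num) hi) (by positivity)
      have b1 := abs_E h (abs_cl p) hC1 hC hx (j := j + 1) (by omega)
      rw [pow_succ (x + s ^ 56) j, ← mul_assoc] at b1
      have b2 := le_of_mul_le_mul_right b1 hy
      have b3 := abs_k hy d0.le hj
      rw [← hN] at b3
      have b4 := mul_le_mul_of_nonneg_right (hw j (by omega))
        (abs_nonneg (ES X (s ^ 56) α (s ^ 20) (cl p) (j + 1) (x + s ^ 56)))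
      have b5 := mul_le_mul_of_nonneg_right (hw (j + 1) (by omega))
        (abs_nonneg (d * pw (-1) j (x + s ^ 56)))
      have b6 := mul_le_mul_of_nonneg_left de hN0
      have b7 := mul_nonneg hK e0.le
      constructor
      · nlinarith
      · nlinarith
    · have hx' : x ∈ Icc (0 : ℝ) 1 := ⟨by linarith [hx.1], hx.2⟩
      rw [u0 x hx']
      rcases le_or_gt x (3 * X) with h3 | h3
      · refine (h.eta_big (abs_cl p) (hTX.trans hx.1)).trans ?_
        nlinarith [hx.1]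
      · rw [h.eta_far _ h3, abs_zero]; positivity
    · obtain ⟨i1, -, i3, i4⟩ := h.eta_in (X := X) (α := α) (abs_cl p) hx
      simp only [Top.wT, Top.idS, c0 _ x (in01 x hx), add_sub_cancel_right]
      exact ⟨i1, i3, i4.trans (by positivity)⟩
    · have hx' : x ∈ Icc 0 (s ^ 20 / 200) := ⟨hx.1.le, hx.2⟩
      simp only [Top.wT, Top.idS, c0 _ x (in01 x hx'), add_sub_cancel_right]
      exact (h.eta_in (abs_cl p) hx').2.1 hx.1
    · have hx' : x ∈ Icc (0 : ℝ) 1 := ⟨hx.1.le, by linarith [hx.2]⟩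
      have hy : 0 < x + s ^ 56 := by linarith [hx.1]
      rw [c2 0 x hx', pw_zero, Real.rpow_neg_one, rp (3 / 2) 30 (by norm_num)]
      have e1 : 1 - x * (d * (x + s ^ 56)⁻¹) - 1 / (1 + 2 * e) = d * (s ^ 56 / (x + s ^ 56)) := by
        have e2 : 1 / (1 + 2 * e) = 1 - d := by rw [hp.hd]; field_simp; ring
        rw [e2]; field_simp; ring
      have h1 := h.om_div hx.1
      have h2 : 0 ≤ s ^ 56 / (x + s ^ 56) := by positivity
      rw [e1, abs_of_nonneg (by positivity)]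
      nlinarith
    · rw [sub_zero, rp (21 / 20) 21 (by norm_num)] at hx
      have hx0 : 0 < x := (pow_pos hs 21).trans_le hx.1
      rw [hV 4 x ⟨hx0, by linarith [hx.2]⟩]
      have h1 := h.V4 (abs_cl p) hx.1
      have h2 : 0 ≤ ((s ^ 20 - 0) / x) ^ 63 := by rw [sub_zero]; positivity
      simp only [QS, zero_add]
      linarith
    · rw [hV 3 X ⟨hX, by linarith⟩]
      have h1 := h.V3 (abs_cl p)
      simp only [QS]
      rwa [show ∀ u : ℝ, -3 + u + 3 = u from fun u => by ring]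
    · have h1 := abs_lt.1 (h.Vn (abs_cl p) j)
      simp only [nn, sub_zero]
      rw [hV j _ ⟨hT, by linarith⟩]
      constructor
      · intro hj
        have : cl p j = 1 := by simp [cl, hj]
        rw [this] at h1; linarith [h1.1]
      · intro hj
        have : cl p j = -1 := by simp [cl, hj]
        rw [this] at h1; linarith [h1.2]

end Crest.Agent.N207.S.Da
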